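import Vale.Agent.P021.Defs
import Vale.Agent.P021.Bdl.B3

namespace Vale.Agent.Results.P021.ExponentPi6027

open Vale.Agent.P021

/-- The irrationality exponent of `π` is at most `6.027`. -/
theorem result : irrationalityExponent Real.pi ≤ ((6.027 : ℝ) : EReal) :=
  Det.result3 Det.betBound_T1

end Vale.Agent.Results.P021.ExponentPi6027
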